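-- RD-ONLY
import Vale.Agent.P028.MathlibUsed
import Vale.Agent.P028.RD.R226.World
attribute [-instance] ProperSMul.toContinuousSMul IsTopologicalTorsor.toContinuousSMul IdemSemiring.toCanonicallyOrderedAdd IdemSemiring.toMulLeftMono IdemSemiring.toMulRightMono AddQuantale.instAddLeftMono AddQuantale.instAddRightMono Quantale.instMulLeftMono Quantale.instMulRightMono FiniteDimensional.rclike_to_real IsScalarTower.complexToReal FiniteDimensional.complexToReal

/-!
# The state depends only on the world and on the dyadic class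
-/

namespace Vale.P028.PA

variable (P : Par) (D : Dat)

/-- the candidate depends only on the radius and on the deficit -/
theorem isCand_congr {j q r : ℕ} (hψ : D.ψ q = D.ψ r) (hM : D.M j q = D.M j r) (F : ℚ) :
    IsCand P D j q F ↔ IsCand P D j r F := by
  unfold IsCand rho KK
  rw [hψ, hM]

theorem KK_congr {j q r : ℕ} (hψ : D.ψ q = D.ψ r) (hM : D.M j q = D.M j r) (F : ℚ) :
    KK D j q F = KK D j r F := by
  unfold KK
  rw [hψ, hM]

theorem Cand_congr {j q r : ℕ} (hψ : D.ψ q = D.ψ r) (hM : D.M j q = D.M j r) :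
    Cand P D j q = Cand P D j r := by
  unfold Cand
  have h : IsCand P D j q = IsCand P D j r := by
    funext F
    exact propext (isCand_congr P D hψ hM F)
  rw [h]

theorem Kst_congr {s : ℕ → State} {j q r : ℕ} (hψ : D.ψ q = D.ψ r) (hM : D.M j q = D.M j r)
    (hs : s q = s r) : Kst D s j q = Kst D s j r := by
  unfold Kst
  rw [hs]
  cases s r with
  | none => rfl
  | some x => exact KK_congr D hψ hM x.1

theorem Wants_congr {s : ℕ → State} {j q r : ℕ} (hψ : D.ψ q = D.ψ r) (hM : D.M j q = D.M j r)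
    (hs : s q = s r) : Wants P D s j q ↔ Wants P D s j r := by
  unfold Wants
  rw [hs]
  simp only [isCand_congr P D hψ hM, KK_congr D hψ hM]

theorem grp_congr {s : ℕ → State} {j q r : ℕ} (hψ : D.ψ q = D.ψ r) (hM : D.M j q = D.M j r)
    (hs : s q = s r) (hw : D.wd j q = D.wd j r) : grp P D s j q = grp P D s j r := by
  classical
  unfold grp
  rw [hw, hs, Kst_congr D hψ hM hs]

theorem Light_congr {s : ℕ → State} {j q r : ℕ} (hψ : D.ψ q = D.ψ r) (hM : D.M j q = D.M j r)
    (hs : s q = s r) (hw : D.wd j q = D.wd j r) : Light P D s j q ↔ Light P D s j r := by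
  unfold Light
  rw [grp_congr P D hψ hM hs hw, Kst_congr D hψ hM hs]

/-- one step of the automaton -/
theorem step_congr {s : ℕ → State} {j q r : ℕ} (hψ : D.ψ q = D.ψ r) (hM : D.M j q = D.M j r)
    (hs : s q = s r) (hw : D.wd j q = D.wd j r) : step P D s j q = step P D s j r := by
  classical
  unfold step
  rw [Cand_congr P D hψ hM, hs]
  by_cases h1 : Wants P D s j r
  · rw [if_pos h1, if_pos ((Wants_congr P D hψ hM hs).2 h1)]
    by_cases h2 : Light P D s j r
    · rw [if_pos h2, if_pos ((Light_congr P D hψ hM hs hw).2 h2)]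
    · rw [if_neg h2, if_neg fun h => h2 ((Light_congr P D hψ hM hs hw).1 h)]
  · rw [if_neg h1, if_neg fun h => h1 ((Wants_congr P D hψ hM hs).1 h)]

/-- **the state depends only on the radius, the deficits and the worlds.** -/
theorem st_congr {q r : ℕ} (hψ : D.ψ q = D.ψ r) : ∀ j : ℕ,
    (∀ i, 1 ≤ i → i ≤ j → D.M i q = D.M i r ∧ D.wd i q = D.wd i r) → st P D j q = st P D j r := by
  intro j
  induction j with
  | zero => intro _; rfl
  | succ j ih =>
    intro h
    have h1 := ih fun i hi hij => h i hi (by omega)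
    obtain ⟨h2, h3⟩ := h (j + 1) (by omega) le_rfl
    exact step_congr P D hψ h2 h1 h3

end Vale.P028.PA

namespace Vale.P028.SK

open Finset CF

variable {g : Cfg}

/-- equal worlds at a stage are equal at the earlier stages -/
theorem Rg_down {i j q r : ℕ} (hij : i ≤ j) (h : Rg g j q = Rg g j r) :
    Rg g i q = Rg g i r := by
  apply Nat.eq_of_factorization_eq (Rg_pos _ _).ne' (Rg_pos _ _).ne'
  intro p
  have h1 := congrArg (fun n => n.factorization p) h
  simp only [Rg_fac] at h1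
  rw [Rg_fac, Rg_fac]
  by_cases hp : p ∈ PO (z g i) (N g)
  · have h2 : p ∈ PO (z g j) (N g) := by
      rw [mem_PO] at hp ⊢
      exact ⟨hp.1, lt_of_le_of_lt (z_anti g hij) hp.2.1, hp.2.2⟩
    rw [if_pos hp, if_pos hp]
    rwa [if_pos h2, if_pos h2] at h1
  · rw [if_neg hp, if_neg hp]

/-- **the state depends only on the world and on the dyadic class of the modulus.** -/
theorem st_congr (hV : g.V ⊆ Icc 1 (N g)) {j q r : ℕ} (hq : q ∈ g.V) (hr : r ∈ g.V)
    (hR : Rg g j q = Rg g j r) (hl : Nat.log 2 q = Nat.log 2 r) : st g j q = st g j r := by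
  refine PA.st_congr g.K.P (dat g) (psit_congr g hl) j fun i _ hij => ?_
  have h1 := Rg_down hij hR
  exact ⟨M_of_Rg hV hr hq h1, h1⟩

/-- the states at all the stages up to `j` -/
theorem st_congr_le (hV : g.V ⊆ Icc 1 (N g)) {i j q r : ℕ} (hij : i ≤ j) (hq : q ∈ g.V)
    (hr : r ∈ g.V) (hR : Rg g j q = Rg g j r) (hl : Nat.log 2 q = Nat.log 2 r) :
    st g i q = st g i r :=
  st_congr hV hq hr (Rg_down hij hR) hl

/-- the radius of the automaton -/
theorem rho_congr (hV : g.V ⊆ Icc 1 (N g)) {j q r : ℕ} (hq : q ∈ g.V) (hr : r ∈ g.V)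
    (hR : Rg g j q = Rg g j r) (hl : Nat.log 2 q = Nat.log 2 r) :
    PA.rho (dat g) j q = PA.rho (dat g) j r := by
  rw [CF.rho_eq, CF.rho_eq, psit_congr g hl, M_of_Rg hV hr hq hR]

/-- the complexity -/
theorem KK_congr (hV : g.V ⊆ Icc 1 (N g)) {j q r : ℕ} (hq : q ∈ g.V) (hr : r ∈ g.V)
    (hR : Rg g j q = Rg g j r) (hl : Nat.log 2 q = Nat.log 2 r) (F : ℚ) :
    CF.KK g j q F = CF.KK g j r F :=
  PA.KK_congr (dat g) (psit_congr g hl) (M_of_Rg hV hr hq hR) F

/-- the candidates -/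
theorem isCand_congr (hV : g.V ⊆ Icc 1 (N g)) {j q r : ℕ} (hq : q ∈ g.V) (hr : r ∈ g.V)
    (hR : Rg g j q = Rg g j r) (hl : Nat.log 2 q = Nat.log 2 r) (F : ℚ) :
    PA.IsCand g.K.P (dat g) j q F ↔ PA.IsCand g.K.P (dat g) j r F :=
  PA.isCand_congr g.K.P (dat g) (psit_congr g hl) (M_of_Rg hV hr hq hR) F

/-- the switches -/
theorem Sw_congr (hV : g.V ⊆ Icc 1 (N g)) {j q r : ℕ} (hq : q ∈ g.V) (hr : r ∈ g.V)
    (hR : Rg g j q = Rg g j r) (hl : Nat.log 2 q = Nat.log 2 r) :
    PA.Sw g.K.P (dat g) j q ↔ PA.Sw g.K.P (dat g) j r := by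
  have h1 : (dat g).ψ q = (dat g).ψ r := psit_congr g hl
  have h2 : (dat g).M j q = (dat g).M j r := M_of_Rg hV hr hq hR
  have h3 : PA.st g.K.P (dat g) (j - 1) q = PA.st g.K.P (dat g) (j - 1) r :=
    st_congr_le hV (Nat.sub_le j 1) hq hr hR hl
  unfold PA.Sw
  rw [PA.Wants_congr g.K.P (dat g) h1 h2 h3, PA.Light_congr g.K.P (dat g) h1 h2 h3 hR]

/-- the freezing -/
theorem Fr_congr (hV : g.V ⊆ Icc 1 (N g)) {j q r : ℕ} (hq : q ∈ g.V) (hr : r ∈ g.V)
    (hR : Rg g j q = Rg g j r) (hl : Nat.log 2 q = Nat.log 2 r) :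
    PA.Fr g.K.P (dat g) j q ↔ PA.Fr g.K.P (dat g) j r := by
  have h1 : (dat g).ψ q = (dat g).ψ r := psit_congr g hl
  have h2 : (dat g).M j q = (dat g).M j r := M_of_Rg hV hr hq hR
  have h3 : PA.st g.K.P (dat g) (j - 1) q = PA.st g.K.P (dat g) (j - 1) r :=
    st_congr_le hV (Nat.sub_le j 1) hq hr hR hl
  unfold PA.Fr
  rw [PA.Wants_congr g.K.P (dat g) h1 h2 h3, PA.Light_congr g.K.P (dat g) h1 h2 h3 hR]

end Vale.P028.SK
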